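import Vale.Agent.P011.H738.C2.HY
import Vale.Agent.P011.H169.C2.CentPu
import Vale.Agent.P011.H707.C2.Defs
import Vale.Agent.P011.H867.C2.NearTwo2
import Vale.Agent.P011.H698.PlusOf

/-!
# Characteristic two: the elements of the centralizer close to one belong to the subgroup
-/

open Module Polynomial

set_option linter.unusedSectionVars false
set_option linter.unusedVariables false

namespace Vale.Agent.P011.H738.C2

open Vale.Agent.P011.H738 Vale.Agent.P011.H271 Vale.Agent.P011.H271.S3 Vale.Agent.P011.H698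
open Vale.Agent.P011.H511.FF Vale.Agent.P011.H973.PF
open Vale.Agent.P011.H706.C2 (HQ1F2)
open Vale.Agent.P011.H961 (SetG)
open Vale.Agent.P011.H169.C2 (IsCent2 starK2 starT2 om2 ImR)
open Vale.Agent.P011.H707.C2 (ImA AbAt2)
open Vale.Agent.P011.W (HasNrd)
open Vale.Agent.P011.H738.Atl

section down

variable {k L C A : Type} [Field k] [GFF k] [Field L] [GFF L] [Algebra k L]
  [FiniteDimensional k L] [DivisionRing C] [Algebra L C] [Ring A] [Algebra k A] {N M : ℕ}

/-- Closeness in the algebra implies closeness in the centralizer. -/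
theorem sm_down (B : Basis (Fin N) k A) (B' : Basis (Fin M) L C) (j : C →+* A)
    (hinj : Function.Injective j)
    (hj : ∀ c : k, j (algebraMap L C (algebraMap k L c)) = algebraMap k A c)
    (v : Place k) {ε : ℝ} (hε : 0 < ε) :
    ∃ η : ℝ, 0 < η ∧ ∀ x : C, Sm B v η (j x) → ∀ w : Place L, Ab w v → Sm B' w ε x := by
  classical
  let algC : Algebra k C := ((algebraMap L C).comp (algebraMap k L)).toAlgebra' fun c x =>
    Algebra.commutes _ _
  have tow : IsScalarTower k L C := IsScalarTower.of_algebraMap_eq fun _ => rfl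
  let jl : C →ₗ[k] A :=
    { toFun := j
      map_add' := map_add j
      map_smul' := fun c x => by
        rw [RingHom.id_apply, Algebra.smul_def, Algebra.smul_def, map_mul]
        exact congrArg (· * j x) (hj c) }
  obtain ⟨r, hr⟩ := jl.exists_leftInverse_of_injective (LinearMap.ker_eq_bot.mpr hinj)
  have hr' : ∀ x : C, r (j x) = x := fun x => LinearMap.congr_fun hr x
  obtain ⟨G, hG⟩ : ∃ G : Fin M → Fin N → L, ∀ i l, G i l = B'.repr (r (B l)) i :=
    ⟨fun i l => B'.repr (r (B l)) i, fun _ _ => rfl⟩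
  have hrep : ∀ (x : C) (i : Fin M), B'.repr x i =
      ∑ l, algebraMap k L (B.repr (j x) l) * G i l := by
    intro x i
    have e1 : x = ∑ l, B.repr (j x) l • r (B l) := by
      have h1 : j x = ∑ l, B.repr (j x) l • B l := (B.sum_repr _).symm
      calc x = r (j x) := (hr' x).symm
        _ = r (∑ l, B.repr (j x) l • B l) := congrArg r h1
        _ = _ := by
          rw [map_sum]
          exact Finset.sum_congr rfl fun l _ => map_smul _ _ _
    conv_lhs => rw [e1]
    rw [map_sum, Finsupp.finsetSum_apply]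
    refine Finset.sum_congr rfl fun l _ => ?_
    rw [← algebraMap_smul L (B.repr (j x) l) (r (B l)), map_smul, Finsupp.smul_apply,
      smul_eq_mul, hG]
  have hf : {w : Place L | ∃ v' ∈ ({v} : Set (Place k)), Av' w v'}.Finite :=
    above_finite (Set.finite_singleton v)
  have h1 : ∀ w : Place L, ∃ η : ℝ, 0 < η ∧ (Ab w v → ∀ x : C, Sm B v η (j x) →
      Sm B' w ε x) := by
    intro w
    by_cases hw : Ab w v
    swap
    · exact ⟨1, one_pos, fun h => (hw h).elim⟩
    obtain ⟨c, hc⟩ : ∃ c : ℝ, c = 1 + ∑ p : Fin M × Fin N, w.abv (G p.1 p.2) := ⟨_, rfl⟩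
    have hc1 : 1 ≤ c := by
      have := Finset.sum_nonneg fun (p : Fin M × Fin N) (_ : p ∈ Finset.univ) =>
        w.abv.nonneg (G p.1 p.2)
      linarith
    have hc0 : 0 < c := one_pos.trans_le hc1
    have hcl : ∀ i l, w.abv (G i l) ≤ c := by
      intro i l
      have := Finset.single_le_sum (f := fun p : Fin M × Fin N => w.abv (G p.1 p.2))
        (fun _ _ => w.abv.nonneg _) (Finset.mem_univ (i, l))
      have h2 : w.abv (G i l) ≤ ∑ p : Fin M × Fin N, w.abv (G p.1 p.2) := this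
      linarith
    obtain ⟨η, hη, h3⟩ := ab_small hw (ε := ε / c) (div_pos hε hc0)
    refine ⟨η, hη, fun _ x hx i => ?_⟩
    rw [hrep]
    have h4 : ∀ l, w.abv (algebraMap k L (B.repr (j x) l) * G i l) < ε := by
      intro l
      rw [map_mul]
      calc w.abv (algebraMap k L (B.repr (j x) l)) * w.abv (G i l)
          ≤ w.abv (algebraMap k L (B.repr (j x) l)) * c :=
            mul_le_mul_of_nonneg_left (hcl i l) (w.abv.nonneg _)
        _ < ε / c * c := mul_lt_mul_of_pos_right (h3 _ (hx l)) hc0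
        _ = ε := div_mul_cancel₀ _ hc0.ne'
    clear hrep
    induction (Finset.univ : Finset (Fin N)) using Finset.induction_on with
    | empty => rw [Finset.sum_empty, map_zero]; exact hε
    | insert a s ha ih =>
      rw [Finset.sum_insert ha]
      exact (w.nonarch _ _).trans_lt (max_lt (h4 a) ih)
  choose η hη H using h1
  obtain ⟨m, hm, hml⟩ := exists_lb hf.toFinset η fun w _ => hη w
  refine ⟨m, hm, fun x hx w hw => H w hw x (hx.mono ?_)⟩
  exact hml w (hf.mem_toFinset.2 ⟨v, rfl, av_of_ab hw⟩)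

end down

section main

variable {k K A L K' C : Type} [Field k] [GFF k] [Field K] [StarRing K]
    [Ring A] [StarRing A] [Algebra k K] [Algebra k A] [Algebra K A] [IsScalarTower k K A]
    [StarModule K A]
    [Field L] [Algebra k L] [Field K'] [StarRing K'] [Algebra K K'] [DivisionRing C] [StarRing C]
    [Algebra L K'] [Algebra L C] [Algebra K' C] [IsScalarTower L K' C]
    {t : A} {a : k} {κ : K} {T : L} {jC : C →+* A}
    {N : ℕ} {B : Basis (Fin N) k A} {m n : ℕ}

/-- The involution is linear over the fixed field. -/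
theorem star_smulk (hA : Anis k K A n) (c : k) (x : A) : star (c • x) = c • star x := by
  rw [← algebraMap_smul K c x, star_smul, (hA.fixed _).mpr ⟨c, rfl⟩, algebraMap_smul]

/-- The image of a subgroup. -/
theorem sgp_imA {Ω : Type} [Field Ω] [Algebra K Ω] {f : A →ₐ[K] Matrix (Fin n) (Fin n) Ω}
    (Q : Subgroup (SUA f)) : Sgp (ImA Q) where
  one := ⟨1, Q.one_mem, rfl⟩
  mul := by
    rintro _ ⟨g, hg, rfl⟩ _ ⟨g', hg', rfl⟩
    exact ⟨g * g', Q.mul_mem hg hg', rfl⟩
  str := by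
    rintro _ ⟨g, hg, rfl⟩
    refine ⟨g⁻¹, Q.inv_mem hg, ?_⟩
    have h1 : (((g : SUA f) : Aˣ) : A) * star (((g : SUA f) : Aˣ) : A) = 1 := g.2.1
    change ((((g : SUA f) : Aˣ)⁻¹ : Aˣ) : A) = _
    rw [Units.inv_eq_of_mul_eq_one_right h1]

/-- **The last step**: from the elements of reduced norm one of the centralizer. -/
theorem abAt_core (h2 : (2 : k) = 0) (hA : Anis k K A n) (hm : 0 < m) (hn : n = 2 * m)
    (hSC : SetG L K' C) (hdC : finrank K' C = m ^ 2) (h : IsCent2 k K A L K' C t a T jC)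
    (hts : star t = t) (hκ : κ + star κ = 1) {c0 : k} (hc0 : κ * star κ = algebraMap k K c0)
    {Ω : Type} [Field Ω] [Algebra K Ω] (f : A →ₐ[K] Matrix (Fin n) (Fin n) Ω)
    {Q : Set A} (hQ : Sgp Q) {T0 : Finset (Place k)} {ε1 : ℝ} (hε1 : 0 < ε1)
    (hHQ : HQ1F2 k B T0 ε1 Q) (hGE : GoodE k (a + c0) t m)
    (hnear : ∃ (S0 : Finset (Place k)) (η0 : ℝ), 0 < η0 ∧ ∀ x : C, x * star x = 1 →
      HasNrd K' m x 1 → (∀ v ∈ S0, Sm B v η0 (jC x - 1)) → jC x ∈ Q) :
    AbAt2 B f Q t := by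
  classical
  have i1 := hA.central
  have i2 := hA.simple
  have i3 := hSC.fin
  have i4 := hSC.cen
  have hkinf : Infinite k := Vale.Agent.P011.Hey.gff_infinite k
  have hKinf : Infinite K := Infinite.of_injective _ (algebraMap k K).injective
  have hst := star_smulk hA
  obtain ⟨S0, η0, hη0, hnear⟩ := hnear
  choose d hd0 hd1 hd using fun v : Place k => sm_of_dv B v hη0
  choose r hr0 hr using fun v : Place k => exists_dv hst B v (hd0 v)
  obtain ⟨ρ, hρ, hρr⟩ := exists_lb S0 r fun v _ => hr0 v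
  obtain ⟨S1, hS1, η, hη, hY⟩ := exists_y_of (jC := jC) (B := B) h2 hst hSC h hdC hts hκ hc0 hQ
    hε1 hHQ hGE hρ S0
  choose q hq0 hq using fun v : Place k => Vale.Agent.P011.H169.C2.pu_near2 hSC h hdC κ B v hη
  obtain ⟨μ, hμ, hμq⟩ := exists_lb hS1.toFinset q fun v _ => hq0 v
  refine ⟨hS1.toFinset ∪ S0, min μ ρ, lt_min hμ hρ, ?_⟩
  intro e het hestar hedet hnear'
  obtain ⟨x, rfl⟩ := (h.range e).mp het
  have hx1' : star x * x = 1 := by
    apply h.inj
    rw [map_mul, h.star, map_one]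
    exact hestar
  have hx1 : x * star x = 1 := mul_eq_one_comm.mp hx1'
  obtain ⟨p, u, hpux, hpu1⟩ := Vale.Agent.P011.H169.C2.exists_pu2 h2 hA.fixed hSC h hm hn
    hA.finrank_eq hdC f hκ hc0 hx1 hedet
  have hpun : ∀ v ∈ S1, v.abv (p - 1) < η ∧ v.abv u < η := fun v hv =>
    hq v x p u hpux ((hnear' v (Finset.mem_union_left _ (hS1.mem_toFinset.mpr hv))).mono
      ((min_le_left _ _).trans (hμq v (hS1.mem_toFinset.mpr hv))))
  obtain ⟨y, hy1, hy2, hy3, hy4⟩ := hY p u hpu1 hpun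
  have hy0 : y ≠ 0 := left_ne_zero_of_mul_eq_one hy1
  have hx0 : x ≠ 0 := left_ne_zero_of_mul_eq_one hx1
  have hyi : star y = y⁻¹ := eq_inv_of_mul_eq_one_right hy1
  have hone : HasNrd K' m (1 : C) 1 := fun Ω _ _ f => by
    rw [map_one, map_one, Matrix.det_one]
  obtain ⟨ν, hν⟩ : ∃ ν : K', ν = algebraMap K K' (algebraMap k K p) +
      algebraMap K K' (algebraMap k K u) * (algebraMap K K' κ + algebraMap L K' T) := ⟨_, rfl⟩
  have hxν : HasNrd K' m x ν := by rw [hν]; exact hpux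
  have hyν : HasNrd K' m y ν := by rw [hν]; exact hy2
  have hν0 : ν ≠ 0 := by
    intro h0
    rw [h0] at hxν
    have h2 := hxν.mul (hxν.inv hx0)
    rw [mul_inv_cancel₀ hx0, zero_mul] at h2
    exact one_ne_zero (W.HasNrd.unique hdC hone h2)
  have hz1 : (x * star y) * star (x * star y) = 1 := by
    rw [star_mul, star_star, mul_assoc, ← mul_assoc (star y), hyi,
      inv_mul_cancel₀ hy0, one_mul, hx1]
  have hz2 : HasNrd K' m (x * star y) 1 := by
    have h2 := hxν.mul (hyν.inv hy0)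
    rw [mul_inv_cancel₀ hν0] at h2
    rw [hyi]
    exact h2
  have hzQ : jC (x * star y) ∈ Q := by
    refine hnear _ hz1 hz2 fun v hv => hd v _ ?_
    rw [map_mul, h.star]
    have g1 := (hr v (jC x) ((hnear' v (Finset.mem_union_right _ hv)).mono
      ((min_le_right _ _).trans (hρr v hv)))).1
    have g2 := (hr v (jC y) ((hy4 v hv).mono (hρr v hv))).2
    exact g1.mul (hd0 v) (hd1 v) g2
  have e1 : jC x = jC (x * star y) * jC y := by
    rw [← map_mul, mul_assoc, hyi, inv_mul_cancel₀ hy0, mul_one]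
  rw [e1]
  exact hQ.mul _ hzQ _ hy3

variable [GFF L]

/-- The elements of reduced norm one of the centralizer, from its normal subgroups. -/
theorem near_of_mp (h2 : (2 : k) = 0) (hA : Anis k K A n) (hm : 0 < m) (hn : n = 2 * m)
    (hSC : SetG L K' C) (hdC : finrank K' C = m ^ 2) (h : IsCent2 k K A L K' C t a T jC)
    {Ω : Type} [Field Ω] [Algebra K Ω] (f : A →ₐ[K] Matrix (Fin n) (Fin n) Ω)
    (Q : Subgroup (SUA f)) [Q.Normal] (hi : Q.index ≠ 0)
    {Ω' : Type} [Field Ω'] [Algebra K' Ω'] (g : C →ₐ[K'] Matrix (Fin m) (Fin m) Ω') {M : ℕ}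
    (B' : Basis (Fin M) L C)
    (hMP : ∀ N' : Subgroup (SUA g), N'.Normal → N'.index ≠ 0 → NearA L K' g B' N') :
    ∃ (S0 : Finset (Place k)) (η0 : ℝ), 0 < η0 ∧ ∀ x : C, x * star x = 1 →
      HasNrd K' m x 1 → (∀ v ∈ S0, Sm B v η0 (jC x - 1)) → jC x ∈ ImA Q := by
  classical
  have i1 := hA.central
  have i2 := hA.simple
  have i3 := hSC.fin
  have i4 := hSC.cen
  have hkinf : Infinite k := Vale.Agent.P011.Hey.gff_infinite k
  have hKinf : Infinite K := Infinite.of_injective _ (algebraMap k K).injective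
  have hfL : FiniteDimensional k L := Module.finite_of_finrank_pos (by rw [h.rkL]; norm_num)
  have haL : Algebra.IsAlgebraic k L := Algebra.IsAlgebraic.of_finite k L
  obtain ⟨N', hN'n, hN'i, -, hN'⟩ := Vale.Agent.P011.H169.C2.exists_trace2 f g h hm hn
    hA.finrank_eq hdC Q hi
  obtain ⟨T', -, η', hη', hPF⟩ := hMP N' hN'n hN'i
  choose ηd hηd hdown using fun v : Place k => sm_down B B' jC h.inj h.jk v hη'
  have hbf : {v : Place k | ∃ V ∈ (T' : Set (Place L)), Ab V v}.Finite :=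
    finite_below T'.finite_toSet
  obtain ⟨η0, hη0, hηl⟩ := exists_lb hbf.toFinset ηd fun v _ => hηd v
  refine ⟨hbf.toFinset, η0, hη0, fun x hx1 hxn hnear => ?_⟩
  have hx0 : x ≠ 0 := left_ne_zero_of_mul_eq_one hx1
  have hdet : (g x).det = 1 := by
    have := hxn _ g
    rwa [map_one] at this
  have hxN : (⟨Units.mk0 x hx0, hx1, hdet⟩ : SUA g) ∈ N' := by
    refine hPF _ fun w' hw' i => ?_
    obtain ⟨v, hwv⟩ := H511.FF.exists_below_ab (k := k) w'
    have hv : v ∈ hbf.toFinset := hbf.mem_toFinset.mpr ⟨w', hw', hwv⟩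
    have h1 : Sm B v (ηd v) (jC (x - 1)) := by
      rw [map_sub, map_one]
      exact (hnear v hv).mono (hηl v hv)
    exact hdown v _ h1 w' hwv i
  obtain ⟨z, hz, hze⟩ := ((hN' x).mp ⟨_, hxN, rfl⟩).2.2
  exact ⟨z, hz, hze⟩

/-- **(T4) in characteristic two**, from the normal subgroups of the centralizer. -/
theorem abAt_2 (h2 : (2 : k) = 0) (hA : Anis k K A n) (hm : 0 < m) (hn : n = 2 * m)
    (hSC : SetG L K' C) (hdC : finrank K' C = m ^ 2) (h : IsCent2 k K A L K' C t a T jC)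
    (hts : star t = t) (hκ : κ + star κ = 1) {c0 : k} (hc0 : κ * star κ = algebraMap k K c0)
    {Ω : Type} [Field Ω] [Algebra K Ω] (f : A →ₐ[K] Matrix (Fin n) (Fin n) Ω)
    (B : Basis (Fin N) k A)
    (Q : Subgroup (SUA f)) [Q.Normal] (hi : Q.index ≠ 0) {T0 : Finset (Place k)} {ε1 : ℝ}
    (hε1 : 0 < ε1) (hHQ : HQ1F2 k B T0 ε1 (ImA Q)) (hGE : GoodE k (a + c0) t m)
    {Ω' : Type} [Field Ω'] [Algebra K' Ω'] (g : C →ₐ[K'] Matrix (Fin m) (Fin m) Ω') {M : ℕ}
    (B' : Basis (Fin M) L C)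
    (hMP : ∀ N' : Subgroup (SUA g), N'.Normal → N'.index ≠ 0 → NearA L K' g B' N') :
    AbAt2 B f (ImA Q) t :=
  abAt_core h2 hA hm hn hSC hdC h hts hκ hc0 f (sgp_imA Q) hε1 hHQ hGE
    (near_of_mp h2 hA hm hn hSC hdC h f Q hi g B' hMP)

/-- **(T4) in characteristic two**, `m = 2`. -/
theorem abAt_two2 (h2 : (2 : k) = 0) (hA : Anis k K A n) (hn : n = 2 * 2)
    (hSC : SetG L K' C) (hdC : finrank K' C = 2 ^ 2) (h : IsCent2 k K A L K' C t a T jC)
    (hts : star t = t) (hκ : κ + star κ = 1) {c0 : k} (hc0 : κ * star κ = algebraMap k K c0)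
    {Ω : Type} [Field Ω] [Algebra K Ω] (f : A →ₐ[K] Matrix (Fin n) (Fin n) Ω)
    (B : Basis (Fin N) k A) {Q : Set A} (hQ : Sgp Q) {T0 : Finset (Place k)} {ε1 : ℝ}
    (hε1 : 0 < ε1) (hHQ : HQ1F2 k B T0 ε1 Q) (hGE : GoodE k (a + c0) t 2) :
    AbAt2 B f Q t := by
  have hfL : FiniteDimensional k L := Module.finite_of_finrank_pos (by rw [h.rkL]; norm_num)
  exact abAt_core h2 hA two_pos hn hSC hdC h hts hκ hc0 f hQ hε1 hHQ hGE
    (Vale.Agent.P011.H867.C2.near_two2 h2 hSC hdC B jC h.inj h.star h.jk hε1 hHQ)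

end main

end Vale.Agent.P011.H738.C2
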