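import Vale.Agent.P011.H738.C2.Key
import Vale.Agent.P011.Hey.Fin0

/-!
# Characteristic two: elements of the subgroup with a given reduced norm

The tower lemma for the subgroup of the quadratic field `k(I)`.
-/

open Module Polynomial

set_option linter.unusedSectionVars false
set_option linter.unusedVariables false

namespace Vale.Agent.P011.H738.C2

open Vale.Agent.P011.H738 Vale.Agent.P011.H271 Vale.Agent.P011.H271.S3 Vale.Agent.P011.H698
open Vale.Agent.P011.H511.FF
open Vale.Agent.P011.H706.C2 (HQ1F2)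
open Vale.Agent.P011.H961 (SetG)
open Vale.Agent.P011.H961.C2 (LN2)
open Vale.Agent.P011.H169.C2 (IsCent2 starK2 starT2)
open Vale.Agent.P011.W (HasNrd)
open Vale.Agent.P011.H738.Atl

variable {k K A L K' C : Type} [Field k] [GFF k] [Field K] [StarRing K]
    [Ring A] [StarRing A] [Algebra k K] [Algebra k A] [Algebra K A] [IsScalarTower k K A]
    [StarModule K A]
    [Field L] [Algebra k L] [Field K'] [StarRing K'] [Algebra K K'] [DivisionRing C] [StarRing C]
    [Algebra L K'] [Algebra L C] [Algebra K' C] [IsScalarTower L K' C]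
    {t : A} {a : k} {κ : K} {T : L} {jC : C →+* A}
    {N : ℕ} {B : Basis (Fin N) k A} {Q : Set A} {T0 : Finset (Place k)} {m : ℕ}

/-- **Elements of the subgroup with a given reduced norm.** -/
theorem exists_y_of (h2 : (2 : k) = 0) (hst : ∀ (c : k) (x : A), star (c • x) = c • star x)
    (hSC : SetG L K' C) (h : IsCent2 k K A L K' C t a T jC)
    (hdC : finrank K' C = m ^ 2) (hts : star t = t) (hκ : κ + star κ = 1) {c0 : k}
    (hc0 : κ * star κ = algebraMap k K c0)
    (hQ : Sgp Q) {ε1 : ℝ} (hε1 : 0 < ε1) (hHQ : HQ1F2 k B T0 ε1 Q) (hGE : GoodE k (a + c0) t m)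
    {ε : ℝ} (hε : 0 < ε) (S0 : Finset (Place k)) :
    ∃ S : Set (Place k), S.Finite ∧ ∃ η : ℝ, 0 < η ∧ ∀ p u : k,
      p ^ 2 + p * u + (a + c0) * u ^ 2 = 1 → (∀ v ∈ S, v.abv (p - 1) < η ∧ v.abv u < η) →
      ∃ y : C, y * star y = 1 ∧
        HasNrd K' m y (algebraMap K K' (algebraMap k K p) + algebraMap K K' (algebraMap k K u) *
          (algebraMap K K' κ + algebraMap L K' T)) ∧
        jC y ∈ Q ∧ ∀ v ∈ S0, Sm B v ε (jC y - 1) := by
  classical
  have h2K : (2 : K) = 0 := by rw [← map_ofNat (algebraMap k K) 2, h2, map_zero]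
  have hsκ : star κ = κ + 1 := by linear_combination hκ - κ * h2K
  have hκ2 : κ * κ + κ = algebraMap k K c0 := by
    rw [← hc0, hsκ]
    ring
  -- the quadratic field
  obtain ⟨P, _, _, _, _, _, _, I, bar, hPk, hPI, hrep, hII, hbar, hbk, hbI⟩ :=
    exists_quad h2 ((algebraMap K K').comp (algebraMap k K)) (ν := a + c0)
      (ω := algebraMap K K' κ + algebraMap L K' T)
      (fun c => by
        rw [RingHom.comp_apply, h.comp, (hSC.fix _).mpr ⟨_, rfl⟩])
      (by
        have e1 : algebraMap K K' κ * algebraMap K K' κ + algebraMap K K' κ =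
            algebraMap K K' (algebraMap k K c0) := by
          rw [← map_mul, ← map_add, hκ2]
        have e2 : algebraMap L K' T * algebraMap L K' T + algebraMap L K' T =
            algebraMap K K' (algebraMap k K a) := by
          rw [← map_mul, ← map_add, h.sqT, h.comp]
        have h2K' : (2 : K') = 0 := by rw [← map_ofNat (algebraMap K K') 2, h2K, map_zero]
        rw [RingHom.comp_apply, map_add, map_add]
        linear_combination e1 + e2 + algebraMap K K' κ * algebraMap L K' T * h2K')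
      (by
        rw [star_add, starK2 hSC h, starT2 hSC, hsκ, map_add, map_one]
        ring)
  have h2P : (2 : P) = 0 := by rw [← map_ofNat (algebraMap k P) 2, h2, map_zero]
  -- the radii
  choose d hd0 hd1 hd using fun v : Place k => sm_of_dv B v hε
  obtain ⟨γ, hγ0, hγd⟩ := exists_lb S0 d fun v _ => hd0 v
  have hγ'0 : 0 < min γ 1 := lt_min hγ0 one_pos
  choose d' hd'0 hd' using fun v : Place k => exists_dv hst B v hγ'0
  obtain ⟨ε0, hε0, hε0d⟩ := exists_lb S0 d' fun v _ => hd'0 v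
  have hεγ : ∀ v ∈ S0, ∀ x : A, Sm B v ε0 (x - 1) →
      DV B v (min γ 1) x ∧ DV B v (min γ 1) (star x) :=
    fun v hv x hx => hd' v x (hx.mono (hε0d v hv))
  obtain ⟨W, hW⟩ : ∃ W : Subgroup Pˣ, W = NNs B hQ K' h.star bar m S0 hγ'0 (min_le_right _ _) :=
    ⟨_, rfl⟩
  -- the good fields
  obtain ⟨SR, hSR, hG⟩ := hGE
  obtain ⟨S, hS⟩ : ∃ S : Set (Place k), S = SR ∪ ((T0 : Set (Place k)) ∪ S0) := ⟨_, rfl⟩
  have hSf : S.Finite := by
    rw [hS]
    exact hSR.union (T0.finite_toSet.union S0.finite_toSet)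
  have hGF : GF S W := by
    intro V hV hVS
    obtain ⟨y, hyu, hys, hyt, -, hym, hysep, hsp, hLN⟩ := hG V hV (hVS.mono_right (by
      rw [hS]
      exact Set.subset_union_left))
    obtain ⟨M, i1, i2, i3, θ, R, i4, i5, i6, hadj, hmin, hRf, hR, H⟩ :=
      key (γ := min γ 1) h2 hSC h hdC hts hκ hc0 (bar := bar)
        (fun c => by rw [hPk]; rfl) hPI hrep hbar hε1 hHQ hyu hys hyt hym
        hysep S0 hε0 hεγ
    obtain ⟨δ, hδ, Hδ⟩ := H (S ∪ R) (hSf.union hRf)
      (fun v hv => Or.inl (by rw [hS]; exact Or.inr (Or.inl hv)))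
      (fun v hv => Or.inl (by rw [hS]; exact Or.inr (Or.inr hv))) Set.subset_union_right
    refine ⟨M, i1, i2, i3, θ, R, δ, i4, i5, i6, hadj, fun v hv => ?_, hRf, ?_, hδ,
      fun z hz0 hz => ?_⟩
    · rw [hmin]
      exact hsp v hv
    · rw [Set.disjoint_left]
      intro v hv
      refine hR v fun F _ _ β hβ ω hω => ?_
      exact hLN F β hβ v hv ω hω
    · rw [hW]
      exact wm_of_nn hQ h.star hγ'0 (min_le_right _ _) (Algebra.norm_ne_zero_iff.mpr hz0)
        (Hδ z hz0 hz)
  obtain ⟨S', hSS', hS'f, ε', hε', Hb⟩ := descent_all hSf hGF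
  obtain ⟨v0⟩ := Hey.nonempty_place k
  obtain ⟨w0, hw0⟩ := exists_above_ab (K := P) v0
  obtain ⟨η, hη, Hη⟩ := nrF_shift (P := P) I h2P (S := insert v0 S') (hS'f.insert v0)
    (ε := min ε' 1) (lt_min hε' one_pos)
  refine ⟨insert v0 S', hS'f.insert v0, η, hη, fun p u hpu hnear => ?_⟩
  obtain ⟨ν, hν⟩ : ∃ ν : P, ν = algebraMap k P p + algebraMap k P u * I := ⟨_, rfl⟩
  have hbn := Hη p u hnear
  rw [← hν] at hbn
  obtain ⟨b, hb⟩ : ∃ b : P, b = I + (I + 1) * ν := ⟨_, rfl⟩
  rw [← hb] at hbn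
  have hb0 : b ≠ 0 := by
    rintro rfl
    have h1 := hbn v0 (Set.mem_insert _ _) w0 hw0
    rw [zero_sub, AbsoluteValue.map_neg, map_one] at h1
    exact absurd h1 (not_lt.mpr (min_le_right _ _))
  have hνb : ν * bar ν = 1 := by
    rw [hν, map_add, map_mul, hbk, hbk, hbI]
    have e1 : algebraMap k P p ^ 2 + algebraMap k P p * algebraMap k P u +
        algebraMap k P (a + c0) * algebraMap k P u ^ 2 = 1 := by
      rw [← map_pow, ← map_pow, ← map_mul, ← map_mul, ← map_add, ← map_add, hpu, map_one]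
    linear_combination e1 + algebraMap k P u ^ 2 * hII + algebraMap k P p * algebraMap k P u * I *
      h2P
  have hν0' : ν ≠ 0 := left_ne_zero_of_mul_eq_one hνb
  have hbb : b / bar b = ν := by
    have e3 : bar b ≠ 0 := (map_ne_zero_iff bar bar.injective).mpr hb0
    rw [div_eq_iff e3, hb, map_add, map_mul, map_add, hbI, map_one]
    linear_combination (-(I + 2)) * hνb - h2P
  have hbW := Hb (Units.mk0 b hb0)
    ((hbn.mono (Set.subset_insert _ _) (min_le_left _ _)))
  rw [hW] at hbW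
  obtain ⟨y, hy1, hy2, hy3, hy4⟩ := hbW
  rw [Units.val_mk0, hbb, hν, map_add, map_mul, hPk, hPk, hPI] at hy2
  refine ⟨y, hy1, hy2, hy3, fun v hv => hd v _ ((hy4 v hv).1.mono ?_)⟩
  exact (min_le_left _ _).trans (hγd v hv)

end Vale.Agent.P011.H738.C2
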