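import Vale.Agent.P011.H738.Atl.Near

/-!
# The quadratic field generated by an element of trace one, characteristic two
-/

open Module Polynomial

set_option linter.unusedSectionVars false

namespace Vale.Agent.P011.H738.C2

open Vale.Agent.P011.H738 Vale.Agent.P011.H271 Vale.Agent.P011.H271.S3
open Vale.Agent.P011.H511.FF Vale.Agent.P011.H74.Odd
open Vale.Agent.P011.H738.Atl

/-- Transport of a multiplicative and additive map through an injective homomorphism. -/
theorem lift_inj {A R : Type} [Ring A] [Ring R] (q : A →+* R) (hq : Function.Injective q)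
    (p : A → R) (hr : ∀ a, ∃ b, q b = p a) (p1 : p 1 = 1) (pm : ∀ a b, p (a * b) = p a * p b)
    (pa : ∀ a b, p (a + b) = p a + p b) : ∃ σ : A →+* A, ∀ a, q (σ a) = p a := by
  choose r hr using hr
  have p0 : p 0 = 0 := by
    have h1 := pa 0 0
    rw [add_zero] at h1
    exact left_eq_add.mp h1
  exact ⟨{ toFun := r
           map_one' := hq (by rw [hr, p1, map_one])
           map_mul' := fun x y => hq (by rw [hr, pm, map_mul, hr, hr])
           map_zero' := hq (by rw [hr, p0, map_zero])
           map_add' := fun x y => hq (by rw [hr, pa, map_add, hr, hr]) }, hr⟩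

/-- **The quadratic field** `k(ω)`, `ω² + ω = ν`, `star ω = ω + 1`. -/
theorem exists_quad {k E : Type} [Field k] [GFF k] [Field E] [StarRing E] (h2 : (2 : k) = 0)
    (φ : k →+* E) (hφ : ∀ c, star (φ c) = φ c) {ν : k} {ω : E} (hω : ω * ω + ω = φ ν)
    (hsω : star ω = ω + 1) :
    ∃ (P : Type) (_ : Field P) (_ : GFF P) (_ : Algebra k P) (_ : FiniteDimensional k P)
      (_ : Algebra.IsSeparable k P) (_ : Algebra P E) (I : P)
      (bar : P ≃+* P), (∀ c : k, algebraMap P E (algebraMap k P c) = φ c) ∧
      algebraMap P E I = ω ∧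
      (∀ b : P, ∃ p u : k, b = algebraMap k P p + algebraMap k P u * I) ∧
      I * I + I = algebraMap k P ν ∧
      (∀ b, star (algebraMap P E b) = algebraMap P E (bar b)) ∧
      (∀ c : k, bar (algebraMap k P c) = algebraMap k P c) ∧ bar I = I + 1 := by
  let _ : Algebra k E := φ.toAlgebra
  have hkE : ∀ c : k, algebraMap k E c = φ c := fun _ => rfl
  have hint : IsIntegral k ω := by
    refine ⟨X ^ 2 + X - C ν, ?_, ?_⟩
    · have e : (X ^ 2 + X - C ν : k[X]) = X ^ 2 + (X - C ν) := by ring
      rw [e]
      refine monic_X_pow_add ?_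
      refine (degree_sub_le _ _).trans_lt ?_
      rw [degree_X]
      exact max_lt (by norm_num) ((degree_C_le).trans_lt (by norm_num))
    · rw [eval₂_sub, eval₂_add, eval₂_pow, eval₂_X, eval₂_C, hkE, sq, hω, sub_self]
  obtain ⟨P, hP⟩ : ∃ P, P = IntermediateField.adjoin k {ω} := ⟨_, rfl⟩
  have hfd : FiniteDimensional k P := by
    rw [hP]
    exact IntermediateField.adjoin.finiteDimensional hint
  have hsepP : Algebra.IsSeparable k P := by
    rw [hP, IntermediateField.isSeparable_adjoin_simple_iff_isSeparable]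
    have e2 : (X ^ 2 + X - C ν : k[X]).Separable := by
      rw [Polynomial.separable_def]
      have e3 : derivative (X ^ 2 + X - C ν : k[X]) = 1 := by
        have h3 : (2 : k[X]) = 0 := by rw [← map_ofNat (C : k →+* k[X]) 2, h2, map_zero]
        rw [derivative_sub, derivative_add, derivative_X_pow, derivative_X, derivative_C,
          sub_zero, Nat.cast_ofNat, map_ofNat, h3, zero_mul, zero_add]
      rw [e3]
      exact isCoprime_one_right
    refine e2.of_dvd (minpoly.dvd k ω ?_)
    rw [map_sub, map_add, map_pow, aeval_X, aeval_C, hkE, sq, hω, sub_self]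
  have hωP : ω ∈ P := by
    rw [hP]
    exact IntermediateField.mem_adjoin_simple_self k ω
  obtain ⟨I, hI⟩ : ∃ I : P, algebraMap P E I = ω := ⟨⟨ω, hωP⟩, rfl⟩
  have hιi : Function.Injective (algebraMap P E) := (algebraMap P E).injective
  have hk : ∀ c : k, algebraMap P E (algebraMap k P c) = φ c := fun c => by
    rw [← IsScalarTower.algebraMap_apply, hkE]
  have hII : I * I + I = algebraMap k P ν := hιi (by
    rw [map_add, map_mul, hI, hω, hk])
  have hrep : ∀ b : P, ∃ p u : k, b = algebraMap k P p + algebraMap k P u * I := by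
    intro b
    have h1 : (b : E) ∈ (IntermediateField.adjoin k {ω}).toSubalgebra := by
      rw [← hP]
      exact b.2
    rw [IntermediateField.adjoin_simple_toSubalgebra_of_isAlgebraic hint.isAlgebraic,
      Algebra.adjoin_singleton_eq_range_aeval] at h1
    obtain ⟨q, hq⟩ := h1
    have hb : b = aeval I q := hιi (by
      have e1 : algebraMap P E (aeval I q) = aeval (algebraMap P E I) q := by
        rw [aeval_algebraMap_apply]
      rw [e1, hI]
      exact hq.symm)
    rw [hb]
    clear hq hb
    induction q using Polynomial.induction_on' with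
    | add q1 q2 h1 h2 =>
      obtain ⟨p1, u1, h1⟩ := h1
      obtain ⟨p2, u2, h2⟩ := h2
      refine ⟨p1 + p2, u1 + u2, ?_⟩
      rw [map_add, h1, h2, map_add, map_add]
      ring
    | monomial n c =>
      rw [aeval_monomial]
      induction n with
      | zero =>
        refine ⟨c, 0, ?_⟩
        rw [pow_zero, mul_one, map_zero, zero_mul, add_zero]
      | succ n ih =>
        obtain ⟨p, u, hpu⟩ := ih
        refine ⟨u * ν, p - u, ?_⟩
        rw [pow_succ, ← mul_assoc, hpu, map_mul, map_sub]
        linear_combination (algebraMap k P u) * hII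
  have hstar : ∀ p u : k, star (algebraMap P E (algebraMap k P p + algebraMap k P u * I)) =
      algebraMap P E (algebraMap k P p + algebraMap k P u * (I + 1)) := by
    intro p u
    rw [map_add, map_add, map_mul, map_mul, map_add, map_one, hI, hk, hk, star_add,
      star_mul, hφ, hφ, hsω]
    ring
  obtain ⟨σ, hσ⟩ := lift_inj (algebraMap P E) hιi (fun b => star (algebraMap P E b))
    (by
      intro b
      obtain ⟨p, u, rfl⟩ := hrep b
      exact ⟨_, (hstar p u).symm⟩)
    (by rw [map_one, star_one])
    (by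
      intro x y
      rw [map_mul, star_mul, mul_comm])
    (by
      intro x y
      rw [map_add, star_add])
  have hσσ : ∀ b, σ (σ b) = b := fun b => hιi (by rw [hσ, hσ, star_star])
  let bar : P ≃+* P := RingEquiv.ofRingHom σ σ (RingHom.ext hσσ) (RingHom.ext hσσ)
  have hbar : ∀ b, algebraMap P E (bar b) = star (algebraMap P E b) := hσ
  refine ⟨P, inferInstance, Hey.H63.gff_of_finite (k := k), inferInstance, hfd, hsepP,
    inferInstance, I, bar, hk, hI, hrep, hII, fun b => (hbar b).symm, fun c => hιi ?_,
    hιi ?_⟩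
  · rw [hbar, hk, hφ]
  · rw [hbar, hI, hsω, map_add, map_one, hI]

section near

variable {k P : Type} [Field k] [GFF k] [Field P] [GFF P] [Algebra k P] [FiniteDimensional k P]

/-- The element `I + (I + 1) ν` is close to one when `ν = p + u I` is close to one. -/
theorem nrF_shift (I : P) (h2 : (2 : P) = 0) {S : Set (Place k)} (hS : S.Finite) {ε : ℝ}
    (hε : 0 < ε) :
    ∃ δ : ℝ, 0 < δ ∧ ∀ p u : k, (∀ v ∈ S, v.abv (p - 1) < δ ∧ v.abv u < δ) →
      NrF S ε (I + (I + 1) * (algebraMap k P p + algebraMap k P u * I)) := by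
  classical
  have hf := above_finite (K := P) hS
  obtain ⟨c, hc⟩ : ∃ c : Place P → ℝ, c = fun w => max 1 (w.abv (I + 1)) * max 1 (w.abv I) :=
    ⟨_, rfl⟩
  have hc1 : ∀ w, 1 ≤ c w := fun w => by
    rw [hc]
    exact one_le_mul_of_one_le_of_one_le (le_max_left _ _) (le_max_left _ _)
  have h1 : ∀ w : Place P, ∃ r : ℝ, 0 < r ∧ ∀ v : Place k, Ab w v → ∀ x : k, v.abv x < r →
      w.abv (algebraMap k P x) < ε / c w := by
    intro w
    obtain ⟨v, hv⟩ := exists_below_ab (k := k) w
    obtain ⟨r, hr, h⟩ := ab_small hv (ε := ε / c w) (div_pos hε (one_pos.trans_le (hc1 w)))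
    refine ⟨r, hr, fun v' hv' x hx => ?_⟩
    have e : v' = v := (av_of_ab hv').unique (av_of_ab hv)
    rw [e] at hx
    exact h x hx
  choose r hr h using h1
  obtain ⟨m, hm, hml⟩ := exists_lb hf.toFinset r fun W _ => hr W
  refine ⟨m, hm, fun p u hpu v hv w hw => ?_⟩
  have hwm : m ≤ r w := hml w (hf.mem_toFinset.2 ⟨v, hv, av_of_ab hw⟩)
  have hcw : 0 < c w := one_pos.trans_le (hc1 w)
  have g1 := h w v hw (p - 1) ((hpu v hv).1.trans_le hwm)
  have g2 := h w v hw u ((hpu v hv).2.trans_le hwm)
  have e : I + (I + 1) * (algebraMap k P p + algebraMap k P u * I) - 1 =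
      (I + 1) * (algebraMap k P (p - 1) + algebraMap k P u * I) := by
    rw [map_sub, map_one]
    linear_combination I * h2
  rw [e, map_mul]
  have k1 : w.abv (algebraMap k P (p - 1) + algebraMap k P u * I) ≤
      max (w.abv (algebraMap k P (p - 1))) (w.abv (algebraMap k P u)) * max 1 (w.abv I) := by
    refine (w.nonarch _ _).trans (max_le ?_ ?_)
    · refine (le_max_left _ _).trans (le_mul_of_one_le_right ?_ (le_max_left _ _))
      exact (w.abv.nonneg _).trans (le_max_left _ _)
    · rw [map_mul]
      exact mul_le_mul (le_max_right _ _) (le_max_right _ _) (w.abv.nonneg _)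
        ((w.abv.nonneg _).trans (le_max_left _ _))
  have k2 : max (w.abv (algebraMap k P (p - 1))) (w.abv (algebraMap k P u)) < ε / c w :=
    max_lt g1 g2
  have k3 : 0 < max 1 (w.abv I) := one_pos.trans_le (le_max_left _ _)
  have k4 : 0 < max 1 (w.abv (I + 1)) := one_pos.trans_le (le_max_left _ _)
  calc w.abv (I + 1) * w.abv (algebraMap k P (p - 1) + algebraMap k P u * I)
      ≤ max 1 (w.abv (I + 1)) *
        (max (w.abv (algebraMap k P (p - 1))) (w.abv (algebraMap k P u)) * max 1 (w.abv I)) :=
        mul_le_mul (le_max_right _ _) k1 (w.abv.nonneg _) k4.le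
    _ < max 1 (w.abv (I + 1)) * (ε / c w * max 1 (w.abv I)) :=
        mul_lt_mul_of_pos_left (mul_lt_mul_of_pos_right k2 k3) k4
    _ = ε := by
        rw [hc]
        field_simp

end near

end Vale.Agent.P011.H738.C2
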