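import Vale.Agent.P011.H738.C2.NN2
import Vale.Agent.P011.H738.C2.QuadP
import Vale.Agent.P011.H424.Dbl.MF2
import Vale.Agent.P011.H889.C2.Close

/-!
# Characteristic two: the good fields of the centralizer of a symmetric element

`t * t + t = a`, `t` symmetric, `C` the centralizer, `I = κ + t`, `P = k(I)`.
-/

open Module Polynomial

set_option linter.unusedSectionVars false
set_option linter.unusedVariables false

namespace Vale.Agent.P011.H738.C2

open Vale.Agent.P011.H738 Vale.Agent.P011.H271 Vale.Agent.P011.H698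
open Vale.Agent.P011.H271.S3 (Ab)
open Vale.Agent.P011.H961 (SetG)
open Vale.Agent.P011.H961.C2 (LN2)
open Vale.Agent.P011.H706.C2 (QFrF2 QEltF2 HQ1F2 Ram)
open Vale.Agent.P011.H169.C2 (IsCent2)
open Vale.Agent.P011.W (HasNrd)
open Vale.Agent.P011.H738.Atl

/-- Symmetric elements `y` with `y t = (t + 1) y` whose square is totally split at the places of
`V`. -/
def GoodE (k : Type) {A : Type} [Field k] [Ring A] [StarRing A] [Algebra k A] (ν : k) (t : A)
    (m : ℕ) : Prop :=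
  ∃ S : Set (Place k), S.Finite ∧ ∀ V : Set (Place k), V.Finite → Disjoint V S →
    ∃ y : A, IsUnit y ∧ star y = y ∧ y * t = (t + 1) * y ∧ Irreducible (minpoly k (y * y)) ∧
      (minpoly k (y * y)).natDegree = m ∧ (minpoly k (y * y)).Separable ∧
      (∀ v ∈ V, ((minpoly k (y * y)).map (algebraMap k v.comp)).Splits) ∧
      ∀ (F : Type) [Field F] [Algebra k F] (β : F), Polynomial.aeval β (minpoly k (y * y)) = 0 →
        ∀ v ∈ V, ∀ ω : Place F, Ab ω v → LN2 ω (algebraMap k F ν) β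

section main

variable {k K A L K' C : Type} [Field k] [GFF k] [Field K] [StarRing K]
    [Ring A] [StarRing A] [Algebra k K] [Algebra k A] [Algebra K A] [IsScalarTower k K A]
    [StarModule K A]
    [Field L] [Algebra k L] [Field K'] [StarRing K'] [Algebra K K'] [DivisionRing C] [StarRing C]
    [Algebra L K'] [Algebra L C] [Algebra K' C] [IsScalarTower L K' C]
    {t : A} {a : k} {κ : K} {T : L} {jC : C →+* A}
    {P : Type} [Field P] [GFF P] [Algebra k P] [FiniteDimensional k P]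
    [Algebra.IsSeparable k P] [Algebra P K']
    {I : P} {bar : P ≃+* P} {N : ℕ} {B : Basis (Fin N) k A} {Q : Set A} {T0 : Finset (Place k)}
    {m : ℕ}

/-- **The good field attached to a symmetric element.** -/
theorem key (h2 : (2 : k) = 0) (hSC : SetG L K' C) (h : IsCent2 k K A L K' C t a T jC)
    (hdC : finrank K' C = m ^ 2) (hts : star t = t) (hκ : κ + star κ = 1) {c0 : k}
    (hc0 : κ * star κ = algebraMap k K c0)
    (hPk : ∀ c : k, algebraMap P K' (algebraMap k P c) = algebraMap K K' (algebraMap k K c))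
    (hPI : algebraMap P K' I = algebraMap K K' κ + algebraMap L K' T)
    (hrep : ∀ b : P, ∃ p u : k, b = algebraMap k P p + algebraMap k P u * I)
    (hbar : ∀ b, star (algebraMap P K' b) = algebraMap P K' (bar b))
    {ε1 : ℝ} (hε1 : 0 < ε1) (hHQ : HQ1F2 k B T0 ε1 Q) {y : A} (hyu : IsUnit y) (hys : star y = y)
    (hyt : y * t = (t + 1) * y) (hym : (minpoly k (y * y)).natDegree = m)
    (hysep : (minpoly k (y * y)).Separable) (S0 : Finset (Place k)) {ε0 : ℝ} (hε0 : 0 < ε0)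
    {γ : ℝ}
    (hεγ : ∀ v ∈ S0, ∀ x : A, Sm B v ε0 (x - 1) → DV B v γ x ∧ DV B v γ (star x)) :
    ∃ (M : Type) (_ : Field M) (_ : Algebra P M) (_ : Algebra k M) (θ : M) (R : Set (Place k)),
      IsScalarTower k P M ∧ FiniteDimensional P M ∧ Algebra.IsSeparable P M ∧
      Algebra.adjoin P {θ} = ⊤ ∧ minpoly k θ = minpoly k (y * y) ∧ R.Finite ∧
      (∀ v, (∀ (F : Type) [Field F] [Algebra k F] (β : F),
        Polynomial.aeval β (minpoly k (y * y)) = 0 →
        ∀ ω : Place F, Ab ω v → LN2 ω (algebraMap k F (a + c0)) β) → v ∉ R) ∧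
      ∀ S' : Set (Place k), S'.Finite → (T0 : Set (Place k)) ⊆ S' →
        (S0 : Set (Place k)) ⊆ S' → R ⊆ S' →
        ∃ δ : ℝ, 0 < δ ∧ ∀ z : M, z ≠ 0 → NrF S' δ z →
          NN B Q K' jC bar m S0 γ (Algebra.norm P z) := by
  classical
  have hnt : Nontrivial A := ⟨jC 0, jC 1, fun h' => zero_ne_one (h.inj h')⟩
  obtain ⟨g, hg⟩ := (h.range (y * y)).mp (by
    have h2A : (2 : A) = 0 := by rw [← map_ofNat (algebraMap k A) 2, h2, map_zero]
    have e1 : y * y * t = (t + 1 + 1) * (y * y) := by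
      rw [mul_assoc, hyt, ← mul_assoc, mul_add, hyt, mul_one, add_mul, add_mul, add_mul]
      noncomm_ring
    have e2 : t + 1 + 1 = t := by
      rw [add_assoc, one_add_one_eq_two, h2A, add_zero]
    rw [e1, e2])
  obtain ⟨F, _, _, _, _, ι, β, M, _, _, _, fPM, sPM, θ, ψ, τ, φ, fr, hgenF, hβ, hψ, hθ, hadj, -,
    -, hnrd, hτ, hφk, hιφ, hφβ, hel⟩ := H424.Dbl.exists_MF2' (m := m) h2 hSC h hdC hts hκ hc0 hPk
      hPI hrep hyu hys hyt hg hym hysep
  let _ : Algebra k M := ((algebraMap P M).comp (algebraMap k P)).toAlgebra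
  have t1 : IsScalarTower k P M := IsScalarTower.of_algebraMap_eq fun _ => rfl
  have hkM : ∀ c : k, algebraMap k M c = algebraMap P M (algebraMap k P c) := fun _ => rfl
  have hkA : ∀ c : k, jC (ψ (algebraMap k M c)) = algebraMap k A c := fun c => by
    rw [hkM, hψ, hPk, h.jK, ← IsScalarTower.algebraMap_apply]
  obtain ⟨Ψ, hΨ⟩ : ∃ Ψ : M →ₐ[k] A, ∀ z, Ψ z = jC (ψ z) :=
    ⟨{ jC.comp ψ with commutes' := hkA }, fun _ => rfl⟩
  have fkM : FiniteDimensional k M := Module.Finite.trans P M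
  have skM : Algebra.IsSeparable k M := Algebra.IsSeparable.trans k P M
  have hmin : minpoly k θ = minpoly k (y * y) := by
    have h1 : Ψ θ = y * y := by rw [hΨ, hθ, hg]
    rw [← h1]
    exact (minpoly.algHom_eq Ψ (Ψ : M →+* A).injective θ).symm
  have hττ : ∀ x, τ (τ x) = x := fun x => ψ.injective (by rw [hτ, hτ, star_star])
  have hτk : ∀ c : k, τ (algebraMap k M c) = algebraMap k M c := fun c => by
    apply ψ.injective
    rw [hτ]
    have h1 : ψ (algebraMap k M c) = algebraMap K' C (algebraMap P K' (algebraMap k P c)) := by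
      rw [hkM, hψ]
    rw [h1, hPk, hSC.star_algebraMapD, h.comp, (hSC.fix _).mpr ⟨_, rfl⟩]
  obtain ⟨τ', hτ'⟩ : ∃ τ' : M ≃ₐ[k] M, ∀ x, τ' x = τ x :=
    ⟨AlgEquiv.ofRingEquiv (f := τ) hτk, fun _ => rfl⟩
  obtain ⟨φ', hφ'⟩ : ∃ φ' : F →ₐ[k] M, ∀ x, φ' x = φ x :=
    ⟨AlgHom.mk φ hφk, fun _ => rfl⟩
  refine ⟨M, inferInstance, inferInstance, inferInstance, θ,
    {v : Place k | ∃ ω : Place F, Ram (algebraMap k F (a + c0)) β ω ∧ Ab ω v}, t1, fPM,
    sPM, hadj, hmin, H889.C2.ram_below_finite h2 fr.b0, ?_, ?_⟩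
  · rintro v hv ⟨ω, hω, hωv⟩
    exact hω (hv F β hβ ω hωv)
  · intro S' hS'f hT0 hS0 hR
    obtain ⟨δ, hδ, hcl⟩ := H889.C2.close_mem B (ι := ι) (α := algebraMap k F (a + c0)) (β := β)
      (i := algebraMap K A κ + t) (j := y) h2 Ψ τ' (fun x => by rw [hτ', hτ', hττ]) φ'
      (fun u hu => by
        rw [hτ'] at hu
        obtain ⟨p0, p1, hq, -, hp1⟩ := hel u hu
        refine ⟨p0, p1, ?_, ?_⟩
        · rw [hΨ]
          exact hq
        · rw [hφ', hp1]) hε1 hHQ S0 hε0 S' hS'f hT0 hS0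
      (fun ω hω v hv => hR ⟨ω, hω, hv⟩)
    refine ⟨δ, hδ, fun z hz0 hz => ?_⟩
    refine nn_of_field (ψ := ψ) (τ := τ) (δ := δ) (S' := S') (ε0 := ε0)
      (fun c => hSC.star_algebraMapD c) hbar hψ hnrd hτ hεγ (fun z hz0 hz => ?_) z hz0 hz
    have h1 := hcl z hz0 hz
    rw [hΨ, hτ'] at h1
    exact h1

end main

end Vale.Agent.P011.H738.C2
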