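import Vale.Agent.P011.H738.C2.Near2
import Vale.Agent.P011.H738.Atl.Fin
import Vale.Agent.P011.W.Nrd

/-!
# The subgroup of the quadratic field attached to a normal subgroup

The elements whose quotient by the conjugate is the reduced norm of a unitary element of the
centralizer which belongs to the subgroup and is close to one.
-/

open Module

set_option linter.unusedSectionVars false

namespace Vale.Agent.P011.H738.C2

open Vale.Agent.P011.H738 Vale.Agent.P011.H271 Vale.Agent.P011.H698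
open Vale.Agent.P011.W (HasNrd)
open Vale.Agent.P011.H738.Atl (NrF WM)

section nn

variable {k A K' C P : Type} [Field k] [GFF k] [Ring A] [StarRing A] [Algebra k A]
    [Field K'] [DivisionRing C] [StarRing C] [Algebra K' C]
    [Field P] [Algebra P K'] {N : ℕ}

/-- A set of elements closed under products and conjugates. -/
structure Sgp (Q : Set A) : Prop where
  one : (1 : A) ∈ Q
  mul : ∀ x ∈ Q, ∀ y ∈ Q, x * y ∈ Q
  str : ∀ x ∈ Q, star x ∈ Q

/-- The quotient by the conjugate is a reduced norm. -/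
def NN (B : Basis (Fin N) k A) (Q : Set A) (K' : Type) [Field K'] [Algebra K' C]
    [Algebra P K'] (j : C →+* A) (bar : P ≃+* P) (m : ℕ) (S0 : Finset (Place k))
    (γ : ℝ) (b : P) : Prop :=
  ∃ y : C, y * star y = 1 ∧ HasNrd K' m y (algebraMap P K' (b / bar b)) ∧ j y ∈ Q ∧
    ∀ v ∈ S0, DV B v γ (j y) ∧ DV B v γ (star (j y))

variable {B : Basis (Fin N) k A} {Q : Set A} {j : C →+* A} {bar : P ≃+* P} {m : ℕ}
  {S0 : Finset (Place k)} {γ : ℝ}

theorem NN.one (hQ : Sgp Q) (hγ : 0 < γ) : NN B Q K' j bar m S0 γ (1 : P) := by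
  refine ⟨1, ?_, ?_, ?_, fun v hv => ?_⟩
  · rw [star_one, mul_one]
  · rw [map_one, div_one, map_one]
    intro Ω _ _ f
    rw [map_one, Matrix.det_one, map_one]
  · rw [map_one]
    exact hQ.one
  · rw [map_one, star_one]
    exact ⟨DV.one hγ, DV.one hγ⟩

theorem NN.mul (hQ : Sgp Q) (hγ : 0 < γ) (hγ1 : γ ≤ 1) {b b' : P}
    (h : NN B Q K' j bar m S0 γ b)
    (h' : NN B Q K' j bar m S0 γ b') : NN B Q K' j bar m S0 γ (b * b') := by
  obtain ⟨y, h1, h2, h3, h4⟩ := h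
  obtain ⟨y', h1', h2', h3', h4'⟩ := h'
  refine ⟨y * y', ?_, ?_, ?_, fun v hv => ?_⟩
  · rw [star_mul, mul_assoc, ← mul_assoc y', h1', one_mul, h1]
  · have e : b * b' / bar (b * b') = b / bar b * (b' / bar b') := by
      rw [map_mul, mul_div_mul_comm]
    rw [e, map_mul]
    exact h2.mul h2'
  · rw [map_mul]
    exact hQ.mul _ h3 _ h3'
  · rw [map_mul, star_mul]
    exact ⟨(h4 v hv).1.mul hγ hγ1 (h4' v hv).1, (h4' v hv).2.mul hγ hγ1 (h4 v hv).2⟩

theorem NN.inv (hQ : Sgp Q) (hj : ∀ x, j (star x) = star (j x)) {b : P}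
    (h : NN B Q K' j bar m S0 γ b) : NN B Q K' j bar m S0 γ b⁻¹ := by
  obtain ⟨y, h1, h2, h3, h4⟩ := h
  have hy0 : y ≠ 0 := left_ne_zero_of_mul_eq_one h1
  have hyi : star y = y⁻¹ := eq_inv_of_mul_eq_one_right h1
  refine ⟨star y, ?_, ?_, ?_, fun v hv => ?_⟩
  · rw [star_star, hyi, inv_mul_cancel₀ hy0]
  · have e : b⁻¹ / bar b⁻¹ = (b / bar b)⁻¹ := by
      rw [map_inv₀, inv_div, div_inv_eq_mul, mul_comm, div_eq_mul_inv]
    rw [e, map_inv₀, hyi]
    exact h2.inv hy0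
  · rw [hj]
    exact hQ.str _ h3
  · rw [hj, star_star]
    exact ⟨(h4 v hv).2, (h4 v hv).1⟩

/-- The subgroup. -/
def NNs (B : Basis (Fin N) k A) {Q : Set A} (hQ : Sgp Q) (K' : Type) [Field K'] [Algebra K' C]
    [Algebra P K'] {j : C →+* A} (hj : ∀ x, j (star x) = star (j x)) (bar : P ≃+* P) (m : ℕ)
    (S0 : Finset (Place k)) {γ : ℝ} (hγ : 0 < γ) (hγ1 : γ ≤ 1) : Subgroup Pˣ where
  carrier := {b | NN B Q K' j bar m S0 γ (b : P)}
  one_mem' := NN.one hQ hγ
  mul_mem' := fun h h' => NN.mul hQ hγ hγ1 h h'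
  inv_mem' := fun {b} h => by
    change NN B Q K' j bar m S0 γ ((b⁻¹ : Pˣ) : P)
    rw [Units.val_inv_eq_inv_val]
    exact NN.inv hQ hj h

theorem wm_of_nn (hQ : Sgp Q) (hj : ∀ x, j (star x) = star (j x)) (hγ : 0 < γ) (hγ1 : γ ≤ 1)
    {x : P} (hx0 : x ≠ 0) (hx : NN B Q K' j bar m S0 γ x) :
    WM (NNs B hQ K' hj bar m S0 hγ hγ1) x := ⟨Units.mk0 x hx0, hx, rfl⟩

end nn

section field

variable {k A K' C P : Type} [Field k] [GFF k] [Ring A] [StarRing A] [Algebra k A]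
    [Field K'] [StarRing K'] [DivisionRing C] [StarRing C]
    [Algebra K' C] [Field P] [Algebra k P] [Algebra P K'] {N : ℕ}
    {M : Type} [Field M] [Algebra P M] [FiniteDimensional P M]
    [Algebra k M] [IsScalarTower k P M]

/-- The norms of the elements close to one of a good field. -/
theorem nn_of_field {B : Basis (Fin N) k A} {Q : Set A} {j : C →+* A} {bar : P ≃+* P}
    {m : ℕ} {S0 : Finset (Place k)} {γ : ℝ} {S' : Set (Place k)}
    (hstar : ∀ c : K', star (algebraMap K' C c) = algebraMap K' C (star c))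
    (hbar : ∀ b, star (algebraMap P K' b) = algebraMap P K' (bar b))
    {ψ : M →+* C} {τ : M ≃+* M}
    (hψ : ∀ b, ψ (algebraMap P M b) = algebraMap K' C (algebraMap P K' b))
    (hnrd : ∀ y, HasNrd K' m (ψ y) (algebraMap P K' (Algebra.norm P y)))
    (hτ : ∀ y, ψ (τ y) = star (ψ y)) {ε0 : ℝ}
    (hε0 : ∀ v ∈ S0, ∀ x : A, Sm B v ε0 (x - 1) → DV B v γ x ∧ DV B v γ (star x))
    {δ : ℝ} (hcl : ∀ z : M, z ≠ 0 → NrF S' δ z → j (ψ (z * (τ z)⁻¹)) ∈ Q ∧
      ∀ v ∈ S0, Sm B v ε0 (j (ψ (z * (τ z)⁻¹)) - 1)) (y : M) (hy0 : y ≠ 0)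
    (hy : NrF S' δ y) : NN B Q K' j bar m S0 γ (Algebra.norm P y) := by
  have hinj : Function.Injective ψ := ψ.injective
  have hττ : ∀ y, τ (τ y) = y := fun y => hinj (by rw [hτ, hτ, star_star])
  have hτP : ∀ b : P, τ (algebraMap P M b) = algebraMap P M (bar b) := fun b => hinj (by
    rw [hτ, hψ, hψ, hstar, hbar])
  have hτy0 : τ y ≠ 0 := (map_ne_zero_iff τ τ.injective).mpr hy0
  obtain ⟨u, hu⟩ : ∃ u, u = y * (τ y)⁻¹ := ⟨_, rfl⟩
  have hu1 : u * τ u = 1 := by
    rw [hu, map_mul, map_inv₀, hττ]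
    field_simp
  obtain ⟨hq, hn⟩ := hcl y hy0 hy
  rw [← hu] at hq hn
  have hnorm : Algebra.norm P u = Algebra.norm P y / bar (Algebra.norm P y) := by
    have e1 : Algebra.norm P (τ y) = bar (Algebra.norm P y) := by
      have e2 := Algebra.norm_eq_of_equiv_equiv bar τ (by
        ext b
        exact (hτP b).symm) y
      rw [e2, RingEquiv.apply_symm_apply]
    have e3 : u * τ y = y := by
      rw [hu, mul_assoc, inv_mul_cancel₀ hτy0, mul_one]
    have e4 : bar (Algebra.norm P y) ≠ 0 := by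
      rw [← e1]
      exact Algebra.norm_ne_zero_iff.mpr hτy0
    rw [eq_div_iff e4, ← e1, ← map_mul, e3]
  refine ⟨ψ u, ?_, ?_, hq, fun v hv => hε0 v hv _ (hn v hv)⟩
  · rw [← hτ, ← map_mul, hu1, map_one]
  · rw [← hnorm]
    exact hnrd u

end field

end Vale.Agent.P011.H738.C2
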