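import Vale.Agent.P011.H698.Bd

/-!
# Closeness to one in a finite dimensional algebra, multiplicative form
-/

open Module

set_option linter.unusedSectionVars false

namespace Vale.Agent.P011.H738.C2

open Vale.Agent.P011.H738 Vale.Agent.P011.H271 Vale.Agent.P011.H698

section lin

variable {k A A' : Type} [Field k] [GFF k] [AddCommGroup A] [Module k A] [AddCommGroup A']
  [Module k A'] {N N' : ℕ}

/-- Linear maps are continuous. -/
theorem sm_lin (B : Basis (Fin N) k A) (B' : Basis (Fin N') k A') (L : A →ₗ[k] A') (v : Place k)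
    {ε : ℝ} (hε : 0 < ε) : ∃ δ : ℝ, 0 < δ ∧ ∀ x, Sm B v δ x → Sm B' v ε (L x) := by
  obtain ⟨C, h1, -, h⟩ := lin_bd B B' L
  have hC : 0 < C v := one_pos.trans_le (h1 v)
  refine ⟨ε / (2 * C v), by positivity, fun x hx => ?_⟩
  have h2 : 0 ≤ ε / (2 * C v) := by positivity
  refine (h v _ x h2 hx.bd).sm ?_
  have e : C v * (ε / (2 * C v)) = ε / 2 := by
    field_simp
  rw [e]
  linarith

end lin

section alg

variable {k A : Type} [Field k] [Ring A] [Algebra k A] {N : ℕ} (B : Basis (Fin N) k A)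
  (v : Place k)

/-- The left multiplication by `x` is close to one. -/
def DV (ε : ℝ) (x : A) : Prop := ∀ j, Sm B v ε ((x - 1) * B j)

variable {B v} {ε ε' : ℝ}

theorem DV.one (hε : 0 < ε) : DV B v ε (1 : A) := fun j => by
  rw [sub_self, zero_mul]
  exact sm_zero hε

theorem DV.mono (h : ε ≤ ε') {x : A} (hx : DV B v ε x) : DV B v ε' x := fun j => (hx j).mono h

theorem mul_basis (x y : A) : x * y = ∑ l, B.repr y l • (x * B l) := by
  conv_lhs => rw [← B.sum_repr y]
  rw [Finset.mul_sum]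
  exact Finset.sum_congr rfl fun l _ => mul_smul_comm _ _ _

theorem sm_sum (hε : 0 < ε) {ι : Type} (s : Finset ι) (f : ι → A) (h : ∀ i ∈ s, Sm B v ε (f i)) :
    Sm B v ε (∑ i ∈ s, f i) := by
  classical
  induction s using Finset.induction_on with
  | empty => rw [Finset.sum_empty]; exact sm_zero hε
  | insert a s ha ih =>
    rw [Finset.sum_insert ha]
    exact (h a (Finset.mem_insert_self _ _)).add
      (ih fun i hi => h i (Finset.mem_insert_of_mem hi))

theorem sm_smul {r : k} (hr : v.abv r ≤ 1) {x : A} (hx : Sm B v ε x) : Sm B v ε (r • x) :=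
  fun i => by
    rw [map_smul, Finsupp.smul_apply, smul_eq_mul, map_mul]
    exact (mul_le_of_le_one_left (v.abv.nonneg _) hr).trans_lt (hx i)

theorem DV.mul (hε0 : 0 < ε) (hε : ε ≤ 1) {x y : A} (hx : DV B v ε x) (hy : DV B v ε y) :
    DV B v ε (x * y) := by
  intro j
  have e : (x * y - 1) * B j = (x - 1) * ((y - 1) * B j) + (x - 1) * B j + (y - 1) * B j := by
    noncomm_ring
  rw [e]
  refine Sm.add (Sm.add ?_ (hx j)) (hy j)
  rw [mul_basis (B := B) (x - 1) ((y - 1) * B j)]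
  exact sm_sum hε0 _ _ fun l _ => sm_smul ((hy j l).le.trans hε) (hx l)

variable [GFF k]

/-- Closeness in coordinates. -/
theorem sm_of_dv (B : Basis (Fin N) k A) (v : Place k) (hε : 0 < ε) :
    ∃ δ : ℝ, 0 < δ ∧ δ ≤ 1 ∧ ∀ x : A, DV B v δ x → Sm B v ε (x - 1) := by
  obtain ⟨c, hc1, hc⟩ := exists_bd (B := B) (v := v) (1 : A)
  have hc0 : 0 < c := one_pos.trans_le hc1
  refine ⟨min 1 (ε / (2 * c)), lt_min one_pos (by positivity), min_le_left _ _, fun x hx => ?_⟩
  have e : x - 1 = ∑ l, B.repr (1 : A) l • ((x - 1) * B l) := by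
    rw [← mul_basis, mul_one]
  rw [e]
  refine sm_sum hε _ _ fun l _ => ?_
  have h1 := Bd.smul (B := B) (hc l) (hx l).bd
  have h0 : 0 < ε / (2 * c) := by positivity
  refine h1.sm ?_
  calc c * min 1 (ε / (2 * c)) ≤ c * (ε / (2 * c)) :=
        mul_le_mul_of_nonneg_left (min_le_right _ _) hc0.le
    _ = ε / 2 := by field_simp
    _ < ε := by linarith

/-- Closeness of the left multiplication. -/
theorem dv_of_sm (B : Basis (Fin N) k A) (v : Place k) (hε : 0 < ε) :
    ∃ δ : ℝ, 0 < δ ∧ ∀ x : A, Sm B v δ (x - 1) → DV B v ε x := by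
  classical
  choose d hd0 hd using fun j : Fin N => sm_lin B B (LinearMap.mulRight k (B j)) v hε
  rcases (Finset.univ : Finset (Fin N)).eq_empty_or_nonempty with h | hne
  · exact ⟨1, one_pos, fun x _ j => absurd (Finset.mem_univ j) (by rw [h]; simp)⟩
  · obtain ⟨j0, -, hj0⟩ := Finset.exists_min_image Finset.univ d hne
    exact ⟨d j0, hd0 j0, fun x hx j => hd j _ (hx.mono (hj0 j (Finset.mem_univ j)))⟩

/-- The involution is continuous. -/
theorem sm_star [StarRing A] (hst : ∀ (c : k) (x : A), star (c • x) = c • star x)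
    (B : Basis (Fin N) k A) (v : Place k) (hε : 0 < ε) :
    ∃ δ : ℝ, 0 < δ ∧ ∀ x : A, Sm B v δ (x - 1) → Sm B v ε (star x - 1) := by
  obtain ⟨δ, hδ, h⟩ := sm_lin B B
    ({ toFun := star, map_add' := star_add, map_smul' := hst } : A →ₗ[k] A) v hε
  refine ⟨δ, hδ, fun x hx => ?_⟩
  have h1 : Sm B v ε (star (x - 1)) := h _ hx
  rwa [star_sub, star_one] at h1

/-- **Closeness of an element and of its conjugate**, in one radius. -/
theorem exists_dv [StarRing A] (hst : ∀ (c : k) (x : A), star (c • x) = c • star x)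
    (B : Basis (Fin N) k A) (v : Place k) (hε : 0 < ε) :
    ∃ δ : ℝ, 0 < δ ∧ ∀ x : A, Sm B v δ (x - 1) → DV B v ε x ∧ DV B v ε (star x) := by
  obtain ⟨δ1, h1, H1⟩ := dv_of_sm B v hε
  obtain ⟨δ2, h2, H2⟩ := sm_star hst B v h1
  refine ⟨min δ1 δ2, lt_min h1 h2, fun x hx => ⟨H1 x (hx.mono (min_le_left _ _)), ?_⟩⟩
  exact H1 _ (H2 x (hx.mono (min_le_right _ _)))

end alg

end Vale.Agent.P011.H738.C2
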